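import Vale.Agent.P122.AN.Defs
import Vale.Agent.P122.FI.Pl
import Vale.Agent.P122.FI.Loc

/-! # P122 / AN193 : sharp slope cells of a function supported near a surface (helper193) -/

open MeasureTheory Complex Set
open scoped ENNReal NNReal ContDiff FourierTransform

set_option linter.all false

namespace Vale.Agent.P122.AN193

open Vale.Agent.P122.C2 (fw fn Z2)
open Vale.Agent.P122.AN (Srf Dat hz desc pie KTw enw E3)

/-- the points over the slope cell `θ` -/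
def cel (N : ℝ) (v : (Fin 2 → ℝ) → Fin 2 → ℝ) (θ : Z2) : Set E3 := {ξ | ∀ k, ⌊N * v (hz ξ) k⌋ = θ k}

/-- the part of `G` over the slope cell `θ` -/
noncomputable def cutp (N : ℝ) (v : (Fin 2 → ℝ) → Fin 2 → ℝ) (G : E3 → ℂ) (θ : Z2) : E3 → ℂ := (cel N v θ).indicator G

variable {N : ℝ} {v : (Fin 2 → ℝ) → Fin 2 → ℝ} {G : E3 → ℂ} {Q : Set (Fin 2 → ℝ)} {h : (Fin 2 → ℝ) → ℝ} {C0 B : ℝ} {K n : ℕ}

theorem measurableSet_cel (hv : ∀ k, Measurable fun ξ : E3 => v (hz ξ) k) (θ : Z2) : MeasurableSet (cel N v θ) := by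
  unfold cel
  simp only [setOf_forall]
  refine MeasurableSet.iInter fun k => ?_
  have h1 : Measurable fun ξ : E3 => ⌊N * v (hz ξ) k⌋ := Int.measurable_floor.comp ((hv k).const_mul N)
  exact h1 (measurableSet_singleton (θ k))

theorem measurable_cutp (hv : ∀ k, Measurable fun ξ : E3 => v (hz ξ) k) (hG : Measurable G) (θ : Z2) :
    Measurable (cutp N v G θ) := hG.indicator (measurableSet_cel hv θ)

theorem integrable_cutp (hv : ∀ k, Measurable fun ξ : E3 => v (hz ξ) k) (hG : Integrable G) (θ : Z2) :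
    Integrable (cutp N v G θ) := hG.indicator (measurableSet_cel hv θ)

theorem memLp_cutp (hv : ∀ k, Measurable fun ξ : E3 => v (hz ξ) k) (hG : MemLp G 2) (θ : Z2) :
    MemLp (cutp N v G θ) 2 := hG.indicator (measurableSet_cel hv θ)

theorem norm_cutp_le (θ : Z2) (ξ : E3) : ‖cutp N v G θ ξ‖ ≤ ‖G ξ‖ := norm_indicator_le_norm_self _ _

theorem cutp_ne {θ : Z2} {ξ : E3} (hx : cutp N v G θ ξ ≠ 0) : (∀ k, ⌊N * v (hz ξ) k⌋ = θ k) ∧ G ξ ≠ 0 := by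
  unfold cutp at hx
  by_cases h1 : ξ ∈ cel N v θ
  · rw [indicator_of_mem h1] at hx
    exact ⟨h1, hx⟩
  · rw [indicator_of_notMem h1] at hx
    exact absurd rfl hx

theorem dat_cutp (hC0 : 1 ≤ C0) (hv : ∀ k, Measurable fun ξ : E3 => v (hz ξ) k) (hr : ∀ y ∈ Q, ∀ k, 0 ≤ v y k ∧ v y k < 1)
    (hG : Integrable G) (hs : ∀ ξ, G ξ ≠ 0 → hz ξ ∈ Q ∧ |ξ 2 - h (hz ξ)| ≤ C0 / 2 ^ (2 * K * n)) :
    Dat C0 K n Q h v (cutp (2 ^ (K * n)) v G) := by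
  have hN : (0:ℝ) < 2 ^ (K * n) := by positivity
  refine ⟨fun θ => integrable_cutp hv hG θ, ?_, fun θ ξ hx => (hs ξ (cutp_ne hx).2).1, ?_,
    fun θ ξ hx => (hs ξ (cutp_ne hx).2).2⟩
  · intro θ ξ hx k
    obtain ⟨h1, h2⟩ := cutp_ne hx
    obtain ⟨h3, h4⟩ := hr _ (hs ξ h2).1 k
    rw [← h1 k]
    constructor
    · exact Int.floor_nonneg.2 (by positivity)
    · rw [Int.floor_lt]
      push_cast
      nlinarith
  · intro θ ξ hx k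
    obtain ⟨h1, h2⟩ := cutp_ne hx
    have h3 := Int.floor_le ((2:ℝ) ^ (K * n) * v (hz ξ) k)
    have h4 := Int.lt_floor_add_one ((2:ℝ) ^ (K * n) * v (hz ξ) k)
    rw [h1 k] at h3 h4
    have e : v (hz ξ) k - (θ k : ℝ) / 2 ^ (K * n) = (2 ^ (K * n) * v (hz ξ) k - θ k) / 2 ^ (K * n) := by
      field_simp
    rw [e, abs_div, abs_of_pos hN]
    gcongr
    rw [abs_le]
    constructor <;> linarith

theorem mem_desc {θ : Z2} : θ ∈ desc K n 0 0 ↔ ∀ k, 0 ≤ θ k ∧ θ k < 2 ^ (K * n) := by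
  unfold AN.desc
  rw [Fintype.mem_piFinset]
  simp

theorem cell_mem (hr : ∀ y ∈ Q, ∀ k, 0 ≤ v y k ∧ v y k < 1) {ξ : E3} (hx : hz ξ ∈ Q) :
    (fun k => ⌊(2:ℝ) ^ (K * n) * v (hz ξ) k⌋) ∈ desc K n 0 0 := by
  rw [mem_desc]
  intro k
  have hN : (0:ℝ) < 2 ^ (K * n) := by positivity
  obtain ⟨h3, h4⟩ := hr _ hx k
  constructor
  · exact Int.floor_nonneg.2 (by positivity)
  · show ⌊(2:ℝ) ^ (K * n) * v (hz ξ) k⌋ < 2 ^ (K * n)
    rw [Int.floor_lt]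
    push_cast
    nlinarith

theorem sum_cutp (hr : ∀ y ∈ Q, ∀ k, 0 ≤ v y k ∧ v y k < 1) (hs : ∀ ξ, G ξ ≠ 0 → hz ξ ∈ Q) (ξ : E3) :
    ∑ θ ∈ desc K n 0 0, cutp (2 ^ (K * n)) v G θ ξ = G ξ := by
  by_cases h0 : G ξ = 0
  · rw [h0]
    apply Finset.sum_eq_zero
    intro θ _
    have := norm_cutp_le (N := 2 ^ (K * n)) (v := v) (G := G) θ ξ
    rw [h0, norm_zero] at this
    exact norm_le_zero_iff.1 this
  · rw [Finset.sum_eq_single (fun k => ⌊(2:ℝ) ^ (K * n) * v (hz ξ) k⌋)]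
    · unfold cutp
      rw [indicator_of_mem]
      intro k
      rfl
    · intro θ _ hne
      by_contra hx
      exact hne (funext fun k => ((cutp_ne hx).1 k).symm)
    · intro hnm
      exact absurd (cell_mem hr (hs ξ h0)) hnm

theorem sum_cutp_sq (hr : ∀ y ∈ Q, ∀ k, 0 ≤ v y k ∧ v y k < 1) (hs : ∀ ξ, G ξ ≠ 0 → hz ξ ∈ Q) (ξ : E3) :
    ∑ θ ∈ desc K n 0 0, ‖cutp (2 ^ (K * n)) v G θ ξ‖ₑ ^ 2 = ‖G ξ‖ₑ ^ 2 := by
  by_cases h0 : G ξ = 0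
  · rw [h0]
    simp only [enorm_zero, ne_eq, OfNat.ofNat_ne_zero, not_false_eq_true, zero_pow]
    apply Finset.sum_eq_zero
    intro θ _
    have := norm_cutp_le (N := 2 ^ (K * n)) (v := v) (G := G) θ ξ
    rw [h0, norm_zero] at this
    rw [norm_le_zero_iff.1 this]
    simp
  · rw [Finset.sum_eq_single (fun k => ⌊(2:ℝ) ^ (K * n) * v (hz ξ) k⌋)]
    · unfold cutp
      rw [indicator_of_mem]
      intro k
      rfl
    · intro θ _ hne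
      by_contra hx
      have : cutp (2 ^ (K * n)) v G θ ξ ≠ 0 := by
        intro h1
        apply hx
        rw [h1]
        simp
      exact hne (funext fun k => ((cutp_ne this).1 k).symm)
    · intro hnm
      exact absurd (cell_mem hr (hs ξ h0)) hnm

theorem pie_cutp (hv : ∀ k, Measurable fun ξ : E3 => v (hz ξ) k) (hr : ∀ y ∈ Q, ∀ k, 0 ≤ v y k ∧ v y k < 1)
    (hG : Integrable G) (hs : ∀ ξ, G ξ ≠ 0 → hz ξ ∈ Q) (z : E3) :
    pie K n (cutp (2 ^ (K * n)) v G) 0 0 z = 𝓕⁻ G z := by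
  unfold AN.pie
  simp_rw [FI.inv_eq_int]
  rw [← integral_finset_sum]
  · congr 1
    ext ξ
    rw [← Finset.sum_mul, sum_cutp hr hs]
  · intro θ _
    apply (integrable_cutp hv hG θ).mul_bdd (c := 1)
    · have : Continuous fun ξ : E3 => cexp (2 * Real.pi * I * ((inner ℝ z ξ : ℝ) : ℂ)) := by fun_prop
      exact this.aestronglyMeasurable
    · refine Filter.Eventually.of_forall fun ξ => ?_
      exact (FI.norm_ec _).le

theorem enw_cutp (hv : ∀ k, Measurable fun ξ : E3 => v (hz ξ) k) (hr : ∀ y ∈ Q, ∀ k, 0 ≤ v y k ∧ v y k < 1)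
    (hGm : Measurable G) (hG : Integrable G) (hG2 : MemLp G 2) (hs : ∀ ξ, G ξ ≠ 0 → hz ξ ∈ Q) (M : ℕ) :
    enw M K n (cutp (2 ^ (K * n)) v G) ≤ ∫⁻ ξ, ‖G ξ‖ₑ ^ 2 := by
  unfold AN.enw
  calc ∑ θ ∈ desc K n 0 0, ∫⁻ z, ‖𝓕⁻ (cutp (2 ^ (K * n)) v G θ) z‖ₑ ^ 2 * ENNReal.ofReal (((1 + ‖z‖ / 2 ^ (2 * K * n)) ^ M)⁻¹)
      ≤ ∑ θ ∈ desc K n 0 0, ∫⁻ z, ‖𝓕⁻ (cutp (2 ^ (K * n)) v G θ) z‖ₑ ^ 2 := by
        refine Finset.sum_le_sum fun θ _ => lintegral_mono fun z => ?_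
        refine mul_le_of_le_one_right (by positivity) ?_
        rw [ENNReal.ofReal_le_one]
        apply inv_le_one_of_one_le₀
        apply one_le_pow₀
        have : 0 ≤ ‖z‖ / 2 ^ (2 * K * n) := by positivity
        linarith
    _ = ∑ θ ∈ desc K n 0 0, ∫⁻ ξ, ‖cutp (2 ^ (K * n)) v G θ ξ‖ₑ ^ 2 := by
        refine Finset.sum_congr rfl fun θ _ => ?_
        rw [← FI.planch _ (integrable_cutp hv hG θ) (memLp_cutp hv hG2 θ)]
        refine lintegral_congr fun z => ?_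
        rw [FI.inv_eq_int]
    _ = ∫⁻ ξ, ∑ θ ∈ desc K n 0 0, ‖cutp (2 ^ (K * n)) v G θ ξ‖ₑ ^ 2 := by
        rw [lintegral_finset_sum]
        intro θ _
        exact (measurable_cutp hv hGm θ).enorm.pow_const 2
    _ = ∫⁻ ξ, ‖G ξ‖ₑ ^ 2 := by
        refine lintegral_congr fun ξ => ?_
        rw [sum_cutp_sq hr hs]

/-- bounded and integrable implies square integrable -/
theorem memLp_two_of_bdd (hGm : Measurable G) (hG : Integrable G) (hB : ∀ ξ, ‖G ξ‖ ≤ B) : MemLp G 2 := by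
  refine (memLp_two_iff_integrable_sq_norm hGm.aestronglyMeasurable).2 ?_
  refine (hG.norm.const_mul B).mono' (by fun_prop) (Filter.Eventually.of_forall fun ξ => ?_)
  rw [Real.norm_of_nonneg (by positivity), sq]
  exact mul_le_mul_of_nonneg_right (hB ξ) (norm_nonneg _)

/-- helper342's weighted Katz-Tao bound for bounded pieces -/
def StKtw : Prop := ∀ C0 : ℝ, 1 ≤ C0 → ∃ C : ℝ, 1 ≤ C ∧ ∀ (Q : Set (Fin 2 → ℝ)) (h : (Fin 2 → ℝ) → ℝ)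
    (v : (Fin 2 → ℝ) → Fin 2 → ℝ) (K n : ℕ) (g : Z2 → E3 → ℂ) (B : ℝ), 0 ≤ B → Srf C0 Q h v → Dat C0 K n Q h v g →
    (∀ θ, Measurable (g θ)) → (∀ θ ξ, ‖g θ ξ‖ ≤ B) → ∀ M, KTw M K n g (C * B ^ 2 * (2 ^ (8 * K * n))⁻¹)

/-- the pieces of a bounded function supported near a surface -/
def StKt : Prop := ∀ C0 : ℝ, 1 ≤ C0 → ∃ C : ℝ, 1 ≤ C ∧ ∀ (Q : Set (Fin 2 → ℝ)) (h : (Fin 2 → ℝ) → ℝ)
    (v : (Fin 2 → ℝ) → Fin 2 → ℝ), Srf C0 Q h v → (∀ y ∈ Q, ∀ k, 1 / 4 ≤ v y k ∧ v y k ≤ 3 / 4) →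
    (∀ k, Measurable fun ξ : E3 => v (hz ξ) k) → ∀ (K n : ℕ) (B : ℝ) (G : E3 → ℂ), Measurable G → Integrable G →
    (∀ ξ, ‖G ξ‖ ≤ B) → (∀ ξ, G ξ ≠ 0 → hz ξ ∈ Q ∧ |ξ 2 - h (hz ξ)| ≤ C0 / 2 ^ (2 * K * n)) →
    ∃ g : Z2 → E3 → ℂ, Dat C0 K n Q h v g ∧ (∀ z, pie K n g 0 0 z = 𝓕⁻ G z) ∧
      (∀ M, KTw M K n g (C * B ^ 2 * (2 ^ (8 * K * n))⁻¹)) ∧ ∀ M, enw M K n g ≤ ∫⁻ ξ, ‖G ξ‖ₑ ^ 2

theorem stKt_of (H : StKtw) : StKt := by
  intro C0 hC0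
  obtain ⟨C, hC, hk⟩ := H C0 hC0
  refine ⟨C, hC, ?_⟩
  intro Q h v hS hr hv K n B G hGm hG hB hs
  have hr' : ∀ y ∈ Q, ∀ k, 0 ≤ v y k ∧ v y k < 1 := fun y hy k => ⟨by linarith [(hr y hy k).1], by linarith [(hr y hy k).2]⟩
  have hs' : ∀ ξ, G ξ ≠ 0 → hz ξ ∈ Q := fun ξ hx => (hs ξ hx).1
  have hB0 : 0 ≤ B := (norm_nonneg _).trans (hB 0)
  have hd := dat_cutp hC0 hv hr' hG hs
  refine ⟨cutp (2 ^ (K * n)) v G, hd, fun z => pie_cutp hv hr' hG hs' z, ?_, fun M => enw_cutp hv hr' hGm hG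
    (memLp_two_of_bdd hGm hG hB) hs' M⟩
  exact hk Q h v K n _ B hB0 hS hd (fun θ => measurable_cutp hv hGm θ) (fun θ ξ => (norm_cutp_le θ ξ).trans (hB ξ))

end Vale.Agent.P122.AN193
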