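import Vale.Agent.P122.AN193.Hess

/-! # P122 / AN193 : geometry of the graph of a phase near the origin (helper193) -/

open MeasureTheory Complex Set
open scoped ENNReal NNReal ContDiff

set_option linter.all false

namespace Vale.Agent.P122.AN193

open Vale.Agent.P122.FI (E3 sq Phase gr Ext)

theorem sq_convex (r : ℝ) : Convex ℝ (sq r) := (convex_Icc _ _).prod (convex_Icc _ _)

theorem sq_compact (r : ℝ) : IsCompact (sq r) := isCompact_Icc.prod isCompact_Icc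

theorem mem_sq {r : ℝ} {y : ℝ × ℝ} : y ∈ sq r ↔ |y.1| ≤ r ∧ |y.2| ≤ r := by
  unfold FI.sq
  rw [Set.mem_prod, mem_Icc, mem_Icc, abs_le, abs_le]

theorem sq_mono {r r' : ℝ} (h : r ≤ r') : sq r ⊆ sq r' := by
  intro y hy
  rw [mem_sq] at hy ⊢
  exact ⟨hy.1.trans h, hy.2.trans h⟩

section gen

variable {F : Type*} [NormedAddCommGroup F] [NormedSpace ℝ F]

theorem contDiff_fderiv {g : ℝ × ℝ → F} (hg : ContDiff ℝ ∞ g) : ContDiff ℝ ∞ (fderiv ℝ g) :=
  hg.fderiv_right (m := ∞) (by simp)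

theorem bdd_on {g : ℝ × ℝ → F} (hg : Continuous g) (r : ℝ) : ∃ C : ℝ, 0 ≤ C ∧ ∀ y ∈ sq r, ‖g y‖ ≤ C := by
  obtain ⟨C, hC⟩ := (sq_compact r).exists_bound_of_continuousOn (f := g) hg.continuousOn
  exact ⟨max C 0, le_max_right _ _, fun y hy => (hC y hy).trans (le_max_left _ _)⟩

theorem lip_on {g : ℝ × ℝ → F} (hg : ContDiff ℝ ∞ g) (r : ℝ) :
    ∃ C : ℝ, 0 ≤ C ∧ ∀ x ∈ sq r, ∀ y ∈ sq r, ‖g x - g y‖ ≤ C * ‖x - y‖ := by
  obtain ⟨C, hC, hb⟩ := bdd_on (contDiff_fderiv hg).continuous r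
  refine ⟨C, hC, fun x hx y hy => ?_⟩
  exact (sq_convex r).norm_image_sub_le_of_norm_fderiv_le (𝕜 := ℝ) (fun z _ => (hg.differentiable (by simp)).differentiableAt) hb hy hx

theorem tay_on {g : ℝ × ℝ → F} (hg : ContDiff ℝ ∞ g) (r : ℝ) :
    ∃ C : ℝ, 0 ≤ C ∧ ∀ u ∈ sq r, ∀ v ∈ sq r, ‖g v - g u - fderiv ℝ g u (v - u)‖ ≤ C * ‖v - u‖ ^ 2 := by
  obtain ⟨C, hC, hb⟩ := lip_on (contDiff_fderiv hg) r
  refine ⟨C, hC, fun u hu v hv => ?_⟩
  have hseg : segment ℝ u v ⊆ sq r := (sq_convex r).segment_subset hu hv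
  have h1 := (convex_segment (𝕜 := ℝ) u v).norm_image_sub_le_of_norm_fderiv_le' (𝕜 := ℝ) (f := g) (φ := fderiv ℝ g u)
    (C := C * ‖v - u‖) (fun z _ => (hg.differentiable (by simp)).differentiableAt) ?_ (left_mem_segment ℝ u v)
    (right_mem_segment ℝ u v)
  · refine h1.trans (le_of_eq ?_)
    ring
  · intro x hx
    refine (hb x (hseg hx) u hu).trans ?_
    have : ‖x - u‖ ≤ ‖v - u‖ := by
      obtain ⟨a, b, ha, hb', hab, rfl⟩ := hx
      have e : a • u + b • v - u = b • (v - u) := by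
        have : a = 1 - b := by linarith
        subst this
        module
      rw [e, norm_smul, Real.norm_of_nonneg hb']
      have : b ≤ 1 := by linarith
      nlinarith [norm_nonneg (v - u)]
    gcongr

end gen

/-- the second derivative at the origin -/
theorem phase_zero {h : ℝ × ℝ → ℝ} (hh : Phase h) :
    h 0 = 0 ∧ fderiv ℝ h 0 = 0 ∧ ∀ v : ℝ × ℝ, fderiv ℝ (fderiv ℝ h) 0 v v = v.1 ^ 2 + v.2 ^ 2 := by
  obtain ⟨C, hC⟩ := hh.cubic
  have hsm := hh.smooth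
  have key : ∀ v : ℝ × ℝ, |v.1| ≤ 1 → |v.2| ≤ 1 → h 0 = 0 ∧ fderiv ℝ h 0 v = 0 ∧
      fderiv ℝ (fderiv ℝ h) 0 v v = v.1 ^ 2 + v.2 ^ 2 := by
    intro v hv1 hv2
    set φ : ℝ → ℝ := fun t => h (t • v) with hφ
    have hφs : ContDiff ℝ ∞ φ := by
      have h1 : ContDiff ℝ ∞ (fun t : ℝ => t • v) := contDiff_id.smul contDiff_const
      exact hsm.comp h1
    have hder : ∀ t : ℝ, HasDerivAt φ (fderiv ℝ h (t • v) v) t := by
      intro t
      have h1 : HasFDerivAt h (fderiv ℝ h (t • v)) (t • v) := (hsm.differentiable (by simp)).differentiableAt.hasFDerivAt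
      have h2 : HasDerivAt (fun t : ℝ => t • v) v t := by
        simpa using (hasDerivAt_id t).smul_const v
      exact h1.comp_hasDerivAt t h2
    have hder2 : ∀ t : ℝ, HasDerivAt (fun t => fderiv ℝ h (t • v) v) (fderiv ℝ (fderiv ℝ h) (t • v) v v) t := by
      intro t
      have h1 : HasFDerivAt (fderiv ℝ h) (fderiv ℝ (fderiv ℝ h) (t • v)) (t • v) :=
        ((contDiff_fderiv hsm).differentiable (by simp)).differentiableAt.hasFDerivAt
      have h2 : HasDerivAt (fun t : ℝ => t • v) v t := by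
        simpa using (hasDerivAt_id t).smul_const v
      have h3 : HasDerivAt (fun t : ℝ => fderiv ℝ h (t • v)) (fderiv ℝ (fderiv ℝ h) (t • v) v) t :=
        h1.comp_hasDerivAt t h2
      simpa using h3.clm_apply (hasDerivAt_const t v)
    have hd1 : deriv φ = fun t => fderiv ℝ h (t • v) v := by ext t; exact (hder t).deriv
    have := one_var hφs (q := v.1 ^ 2 + v.2 ^ 2) (C := C * (|v.1| + |v.2|) ^ 3) (by
      intro t ht
      have hm : t • v ∈ sq 1 := by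
        rw [mem_sq]
        simp only [Prod.smul_fst, Prod.smul_snd, smul_eq_mul, abs_mul]
        constructor
        · nlinarith [abs_nonneg t, abs_nonneg v.1]
        · nlinarith [abs_nonneg t, abs_nonneg v.2]
      have h1 := hC _ hm
      simp only [Prod.smul_fst, Prod.smul_snd, smul_eq_mul, abs_mul] at h1
      have e1 : ((t * v.1) ^ 2 + (t * v.2) ^ 2) / 2 = (v.1 ^ 2 + v.2 ^ 2) * t ^ 2 / 2 := by ring
      have e2 : C * (|t| * |v.1| + |t| * |v.2|) ^ 3 = C * (|v.1| + |v.2|) ^ 3 * |t| ^ 3 := by ring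
      rw [e1, e2] at h1
      exact h1)
    obtain ⟨a1, a2, a3⟩ := this
    refine ⟨by simpa [hφ] using a1, ?_, ?_⟩
    · rw [hd1] at a2
      simpa using a2
    · rw [hd1, (hder2 0).deriv] at a3
      simpa using a3
  refine ⟨(key 0 (by simp) (by simp)).1, ?_, ?_⟩
  · ext
    · simpa using (key (1, 0) (by simp) (by simp)).2.1
    · simpa using (key (0, 1) (by simp) (by simp)).2.1
  · intro v
    set m : ℝ := |v.1| + |v.2| + 1 with hm
    have hmpos : 0 < m := by positivity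
    have h1 := (key (m⁻¹ • v) (by
      simp only [Prod.smul_fst, smul_eq_mul, abs_mul, abs_of_pos (inv_pos.2 hmpos)]
      rw [inv_mul_le_iff₀ hmpos]
      linarith [abs_nonneg v.2]) (by
      simp only [Prod.smul_snd, smul_eq_mul, abs_mul, abs_of_pos (inv_pos.2 hmpos)]
      rw [inv_mul_le_iff₀ hmpos]
      linarith [abs_nonneg v.1])).2.2
    simp only [map_smul, smul_eq_mul, Prod.smul_fst, Prod.smul_snd, ContinuousLinearMap.smul_apply] at h1
    have h2 : m⁻¹ * (m⁻¹ * fderiv ℝ (fderiv ℝ h) 0 v v) = m⁻¹ * (m⁻¹ * (v.1 ^ 2 + v.2 ^ 2)) := by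
      rw [h1]; ring
    have h3 := mul_left_cancel₀ (inv_pos.2 hmpos).ne' h2
    exact mul_left_cancel₀ (inv_pos.2 hmpos).ne' h3

/-- square of the euclidean length -/
def nsq (v : ℝ × ℝ) : ℝ := v.1 ^ 2 + v.2 ^ 2

theorem norm_sq_le_nsq (v : ℝ × ℝ) : ‖v‖ ^ 2 ≤ nsq v := by
  unfold nsq
  rw [Prod.norm_def]
  rcases max_choice ‖v.1‖ ‖v.2‖ with h | h <;> rw [h, Real.norm_eq_abs, sq_abs]
  · nlinarith [sq_nonneg v.2]
  · nlinarith [sq_nonneg v.1]

theorem nsq_le_norm_sq (v : ℝ × ℝ) : nsq v ≤ 2 * ‖v‖ ^ 2 := by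
  unfold nsq
  have h1 : |v.1| ≤ ‖v‖ := norm_fst_le v
  have h2 : |v.2| ≤ ‖v‖ := norm_snd_le v
  rw [← sq_abs v.1, ← sq_abs v.2]
  nlinarith [abs_nonneg v.1, abs_nonneg v.2]

/-- geometry of the graph of `h` over `sq r` -/
structure Geo (h : ℝ × ℝ → ℝ) (r C : ℝ) : Prop where
  bd : ∀ y ∈ sq r, ‖fderiv ℝ h y‖ ≤ 1 / 4
  lip : ∀ x ∈ sq r, ∀ y ∈ sq r, ‖fderiv ℝ h x - fderiv ℝ h y‖ ≤ C * ‖x - y‖
  ell : ∀ x ∈ sq r, ∀ y ∈ sq r, 1 / 2 * nsq (x - y) ≤ (fderiv ℝ h x - fderiv ℝ h y) (x - y)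
  tay : ∀ u ∈ sq r, ∀ v ∈ sq r, |h v - h u - fderiv ℝ h u (v - u)| ≤ C * ‖v - u‖ ^ 2
  tay2 : ∀ u ∈ sq r, ∀ v ∈ sq r,
    ‖fderiv ℝ h v - fderiv ℝ h u - fderiv ℝ (fderiv ℝ h) u (v - u)‖ ≤ C * ‖v - u‖ ^ 2
  hess : ∀ y ∈ sq r, ∀ v, 1 / 2 * nsq v ≤ fderiv ℝ (fderiv ℝ h) y v v
  symm : ∀ y v w, fderiv ℝ (fderiv ℝ h) y v w = fderiv ℝ (fderiv ℝ h) y w v
  hbd : ∀ y ∈ sq r, ‖fderiv ℝ (fderiv ℝ h) y‖ ≤ C

theorem Geo.mono {h : ℝ × ℝ → ℝ} {r C r' C' : ℝ} (hg : Geo h r C) (hr : r' ≤ r) (hC : C ≤ C') : Geo h r' C' := by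
  have hs := sq_mono hr
  refine ⟨fun y hy => hg.bd y (hs hy), fun x hx y hy => (hg.lip x (hs hx) y (hs hy)).trans ?_,
    fun x hx y hy => hg.ell x (hs hx) y (hs hy), fun x hx y hy => (hg.tay x (hs hx) y (hs hy)).trans ?_,
    fun x hx y hy => (hg.tay2 x (hs hx) y (hs hy)).trans ?_, fun y hy => hg.hess y (hs hy), hg.symm,
    fun y hy => (hg.hbd y (hs hy)).trans hC⟩ <;> gcongr

theorem exists_geo {h : ℝ × ℝ → ℝ} (hh : Phase h) : ∃ r : ℝ, 0 < r ∧ r ≤ 1 ∧ ∃ C : ℝ, 1 ≤ C ∧ Geo h r C := by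
  obtain ⟨h00, h01, h02⟩ := phase_zero hh
  have hsm := hh.smooth
  have hs1 := contDiff_fderiv hsm
  have hs2 := contDiff_fderiv hs1
  obtain ⟨C1, hC1, hl1⟩ := lip_on hs1 1
  obtain ⟨C2, hC2, hl2⟩ := lip_on hs2 1
  obtain ⟨C3, hC3, ht1⟩ := tay_on hsm 1
  obtain ⟨C4, hC4, ht2⟩ := tay_on hs1 1
  obtain ⟨C5, hC5, hb2⟩ := bdd_on hs2.continuous 1
  set r : ℝ := 1 / (4 * (C1 + C2 + 1)) with hr
  have hrpos : 0 < r := by positivity
  have hr1 : r ≤ 1 := by
    rw [hr, div_le_one (by positivity)]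
    linarith
  have hsub : sq r ⊆ sq 1 := sq_mono hr1
  have h0m : (0 : ℝ × ℝ) ∈ sq 1 := by rw [mem_sq]; simp
  have hnorm : ∀ y ∈ sq r, ‖y‖ ≤ r := by
    intro y hy
    rw [mem_sq] at hy
    rw [Prod.norm_def]
    exact max_le hy.1 hy.2
  have hess : ∀ y ∈ sq r, ∀ v, 1 / 2 * nsq v ≤ fderiv ℝ (fderiv ℝ h) y v v := by
    intro y hy v
    have h1 := hl2 y (hsub hy) 0 h0m
    rw [sub_zero] at h1
    have h2 : ‖fderiv ℝ (fderiv ℝ h) y - fderiv ℝ (fderiv ℝ h) 0‖ ≤ 1 / 4 := by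
      refine h1.trans ?_
      calc C2 * ‖y‖ ≤ C2 * r := by
            have := hnorm y hy
            gcongr
        _ ≤ 1 / 4 := by
            rw [hr, mul_one_div, div_le_div_iff₀ (by positivity) (by norm_num)]
            linarith
    have h3 : |(fderiv ℝ (fderiv ℝ h) y - fderiv ℝ (fderiv ℝ h) 0) v v| ≤ 1 / 4 * ‖v‖ * ‖v‖ := by
      have := (fderiv ℝ (fderiv ℝ h) y - fderiv ℝ (fderiv ℝ h) 0).le_opNorm₂ v v
      rw [Real.norm_eq_abs] at this
      refine this.trans ?_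
      gcongr
    simp only [ContinuousLinearMap.sub_apply, h02] at h3
    have h4 := norm_sq_le_nsq v
    have h5 := (abs_le.1 h3).1
    unfold nsq at *
    nlinarith
  refine ⟨r, hrpos, hr1, C1 + C2 + C3 + C4 + C5 + 1, by linarith, ?_⟩
  refine ⟨?_, ?_, ?_, ?_, ?_, hess, ?_, ?_⟩
  · intro y hy
    have h1 := hl1 y (hsub hy) 0 h0m
    rw [h01, sub_zero, sub_zero] at h1
    refine h1.trans ?_
    calc C1 * ‖y‖ ≤ C1 * r := by
          have := hnorm y hy
          gcongr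
      _ ≤ 1 / 4 := by
          rw [hr, mul_one_div, div_le_div_iff₀ (by positivity) (by norm_num)]
          linarith
  · intro x hx y hy
    refine (hl1 x (hsub hx) y (hsub hy)).trans ?_
    gcongr
    linarith
  · intro x hx y hy
    set w := x - y with hw
    have hder : ∀ t : ℝ, HasDerivAt (fun t : ℝ => fderiv ℝ h (y + t • w) w) (fderiv ℝ (fderiv ℝ h) (y + t • w) w w) t := by
      intro t
      have h1 : HasFDerivAt (fderiv ℝ h) (fderiv ℝ (fderiv ℝ h) (y + t • w)) (y + t • w) :=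
        (hs1.differentiable (by simp)).differentiableAt.hasFDerivAt
      have h2 : HasDerivAt (fun t : ℝ => y + t • w) w t := by
        simpa using ((hasDerivAt_id t).smul_const w).const_add y
      have h3 : HasDerivAt (fun t : ℝ => fderiv ℝ h (y + t • w)) (fderiv ℝ (fderiv ℝ h) (y + t • w) w) t :=
        h1.comp_hasDerivAt t h2
      simpa using h3.clm_apply (hasDerivAt_const t w)
    have hcont : ContinuousOn (fun t : ℝ => fderiv ℝ h (y + t • w) w) (Icc 0 1) := fun t _ => (hder t).continuousAt.continuousWithinAt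
    have hmem : ∀ t ∈ Icc (0:ℝ) 1, y + t • w ∈ sq r := by
      intro t ht
      have : y + t • w = (1 - t) • y + t • x := by rw [hw]; module
      rw [this]
      exact (sq_convex r) hy hx (by linarith [ht.2]) ht.1 (by ring)
    have := (convex_Icc (0:ℝ) 1).mul_sub_le_image_sub_of_le_deriv (f := fun t : ℝ => fderiv ℝ h (y + t • w) w)
      hcont (fun t _ => (hder t).differentiableAt.differentiableWithinAt) (C := 1 / 2 * nsq w) (fun t ht => by
        rw [(hder t).deriv]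
        rw [interior_Icc] at ht
        exact hess _ (hmem t (Ioo_subset_Icc_self ht)) w) 0 (by simp) 1 (by simp) (by norm_num)
    simp only [sub_zero, mul_one, one_smul, zero_smul, add_zero] at this
    have e : y + w = x := by rw [hw]; abel
    rw [e] at this
    simpa using this
  · intro u hu v hv
    refine (ht1 u (hsub hu) v (hsub hv)).trans ?_
    gcongr
    linarith
  · intro u hu v hv
    refine (ht2 u (hsub hu) v (hsub hv)).trans ?_
    gcongr
    linarith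
  · intro y v w
    have : IsSymmSndFDerivAt ℝ h y := by
      apply ContDiffAt.isSymmSndFDerivAt (n := ∞) hsm.contDiffAt
      simp only [minSmoothness_of_isRCLikeNormedField]
      exact WithTop.coe_le_coe.2 (le_top : (2 : ℕ∞) ≤ ⊤)
    exact this v w
  · intro y hy
    refine (hb2 y (hsub hy)).trans ?_
    linarith

end Vale.Agent.P122.AN193
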