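import Vale.Agent.P122.FI.Defs

/-! # P122 / AN193 : derivatives of a phase near the origin (helper193) -/

open MeasureTheory Complex Set
open scoped ENNReal NNReal ContDiff

set_option linter.all false

namespace Vale.Agent.P122.AN193

open Vale.Agent.P122.FI (E3 sq Phase gr Ext)

/-- one variable: a smooth function which is `q t² / 2 + O(|t|³)` -/
theorem one_var {φ : ℝ → ℝ} (hφ : ContDiff ℝ ∞ φ) {q C : ℝ}
    (h : ∀ t : ℝ, |t| ≤ 1 → |φ t - q * t ^ 2 / 2| ≤ C * |t| ^ 3) :
    φ 0 = 0 ∧ deriv φ 0 = 0 ∧ deriv (deriv φ) 0 = q := by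
  have hC : 0 ≤ C := by
    have := h 1 (by simp)
    simp only [abs_one, one_pow, mul_one] at this
    exact (abs_nonneg _).trans this
  have h0 : φ 0 = 0 := by
    have := h 0 (by simp)
    simpa using this
  have hd1 : ContDiff ℝ ∞ (deriv φ) := by
    have := (contDiff_infty_iff_deriv.1 hφ).2
    exact this
  have hd2 : ContDiff ℝ ∞ (deriv (deriv φ)) := (contDiff_infty_iff_deriv.1 hd1).2
  -- first derivative
  have h1 : deriv φ 0 = 0 := by
    have hder : HasDerivAt φ (deriv φ 0) 0 := (hφ.differentiable (by simp)).differentiableAt.hasDerivAt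
    have hzero : HasDerivAt φ 0 0 := by
      rw [hasDerivAt_iff_isLittleO]
      simp only [smul_zero, sub_zero, h0]
      refine Asymptotics.IsBigO.trans_isLittleO (g := fun t : ℝ => t ^ 2) ?_ ?_
      · refine Asymptotics.IsBigO.of_bound (|q| / 2 + C) ?_
        filter_upwards [Metric.ball_mem_nhds (0:ℝ) one_pos] with t ht
        have ht1 : |t| ≤ 1 := by
          rw [Metric.mem_ball, dist_zero_right, Real.norm_eq_abs] at ht
          exact ht.le
        have := h t ht1
        rw [Real.norm_eq_abs, Real.norm_eq_abs, abs_of_nonneg (sq_nonneg t)]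
        have h3 : |t| ^ 3 ≤ t ^ 2 := by
          have : |t| ^ 3 = |t| * t ^ 2 := by rw [← sq_abs t]; ring
          rw [this]
          have := sq_nonneg t
          nlinarith
        have h4 : |φ t| ≤ |φ t - q * t ^ 2 / 2| + |q * t ^ 2 / 2| := by
          have := abs_add_le (φ t - q * t ^ 2 / 2) (q * t ^ 2 / 2)
          simpa using this
        have h5 : |q * t ^ 2 / 2| = |q| / 2 * t ^ 2 := by
          rw [abs_div, abs_mul, abs_of_nonneg (sq_nonneg t)]
          norm_num
          ring
        rw [h5] at h4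
        nlinarith
      · have : (fun t : ℝ => t ^ 2) = fun t => t * t := by ext t; ring
        rw [this]
        have h2 : (fun t : ℝ => t * t) =o[nhds 0] fun t : ℝ => (1:ℝ) * t := by
          apply Asymptotics.IsLittleO.mul_isBigO
          · rw [Asymptotics.isLittleO_one_iff]
            exact Filter.tendsto_id
          · exact Asymptotics.isBigO_refl _ _
        simpa using h2
    exact hder.unique hzero
  refine ⟨h0, h1, ?_⟩
  -- second derivative
  set c := deriv (deriv φ) 0 - q with hc
  have hder2 : HasDerivAt (fun t => deriv φ t) (deriv (deriv φ) 0) 0 :=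
    (hd1.differentiable (by simp)).differentiableAt.hasDerivAt
  have key : ∀ ε : ℝ, 0 < ε → |c| ≤ 2 * ε := by
    intro ε hε
    rw [hasDerivAt_iff_isLittleO] at hder2
    have hb := hder2.def (half_pos hε)
    obtain ⟨δ, hδ, hball⟩ := Metric.eventually_nhds_iff_ball.1 hb
    -- choose t
    set t := min (min (δ / 2) 1) (ε / (2 * (C + 1))) with ht
    have htpos : 0 < t := by
      rw [ht]; refine lt_min (lt_min (by linarith) one_pos) (by positivity)
    have ht1 : t ≤ 1 := (min_le_left _ _).trans (min_le_right _ _)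
    have htδ : t ≤ δ / 2 := (min_le_left _ _).trans (min_le_left _ _)
    have htε : t ≤ ε / (2 * (C + 1)) := min_le_right _ _
    -- mean value
    set χ : ℝ → ℝ := fun s => φ s - deriv (deriv φ) 0 * s ^ 2 / 2 with hχ
    have hχd : ∀ s, HasDerivAt χ (deriv φ s - deriv (deriv φ) 0 * s) s := by
      intro s
      have h1 : HasDerivAt φ (deriv φ s) s := (hφ.differentiable (by simp)).differentiableAt.hasDerivAt
      have h2 : HasDerivAt (fun s : ℝ => deriv (deriv φ) 0 * s ^ 2 / 2) (deriv (deriv φ) 0 * s) s := by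
        have := ((hasDerivAt_pow 2 s).const_mul (deriv (deriv φ) 0)).div_const 2
        refine this.congr_deriv ?_
        simp
        ring
      exact h1.sub h2
    have hbound : ∀ s ∈ Icc (0:ℝ) t, ‖deriv φ s - deriv (deriv φ) 0 * s‖ ≤ ε / 2 * t := by
      intro s hs
      have hsb : s ∈ Metric.ball (0:ℝ) δ := by
        rw [Metric.mem_ball, dist_zero_right, Real.norm_eq_abs, abs_of_nonneg hs.1]
        linarith [hs.2]
      have := hball s hsb
      simp only [h1, sub_zero, smul_eq_mul] at this
      rw [mul_comm (deriv (deriv φ) 0)]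
      refine this.trans ?_
      rw [Real.norm_eq_abs, abs_of_nonneg hs.1]
      have := hs.2
      gcongr
    have hmv := (convex_Icc (0:ℝ) t).norm_image_sub_le_of_norm_hasDerivWithin_le
      (f := χ) (f' := fun s => deriv φ s - deriv (deriv φ) 0 * s) (C := ε / 2 * t)
      (fun s hs => (hχd s).hasDerivWithinAt) hbound (x := 0) (y := t) (by simp [htpos.le]) (by simp [htpos.le])
    have hχ0 : χ 0 = 0 := by simp [hχ, h0]
    rw [hχ0, sub_zero, sub_zero, Real.norm_eq_abs, Real.norm_eq_abs, abs_of_pos htpos] at hmv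
    have hcub := h t (by rw [abs_of_pos htpos]; exact ht1)
    rw [abs_of_pos htpos] at hcub
    have e1 : c * t ^ 2 / 2 = (φ t - q * t ^ 2 / 2) - χ t := by
      simp only [hχ, hc]; ring
    have e2 : |c| * t ^ 2 / 2 ≤ C * t ^ 3 + ε / 2 * t * t := by
      have : |c * t ^ 2 / 2| = |c| * t ^ 2 / 2 := by
        rw [abs_div, abs_mul, abs_of_nonneg (sq_nonneg t)]
        norm_num
      rw [← this, e1]
      calc |(φ t - q * t ^ 2 / 2) - χ t| ≤ |φ t - q * t ^ 2 / 2| + |χ t| := abs_sub _ _
        _ ≤ _ := add_le_add hcub hmv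
    have e3 : C * t ^ 3 ≤ ε / 2 * t ^ 2 := by
      have : C * t ≤ ε / 2 := by
        have h5 : (C + 1) * t ≤ ε / 2 := by
          rw [le_div_iff₀ (by positivity)] at htε
          linarith
        nlinarith
      calc C * t ^ 3 = (C * t) * t ^ 2 := by ring
        _ ≤ ε / 2 * t ^ 2 := by gcongr
    have e4 : |c| * t ^ 2 ≤ 2 * ε * t ^ 2 := by nlinarith
    exact le_of_mul_le_mul_right e4 (by positivity)
  have : |c| = 0 := by
    apply le_antisymm _ (abs_nonneg _)
    apply le_of_forall_pos_le_add
    intro ε hε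
    have := key (ε / 2) (by positivity)
    linarith
  have h3 := abs_eq_zero.1 this
  linarith

end Vale.Agent.P122.AN193
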