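import Vale.Agent.P122.AN.Defs
import Vale.Agent.P122.AN193.Geo

/-! # P122 / AN193 : the graph of a sheared phase is a surface in the sense of `AN.Srf` (helper193) -/

open MeasureTheory Complex Set
open scoped ENNReal NNReal ContDiff

set_option linter.all false

namespace Vale.Agent.P122.AN193

open Vale.Agent.P122.FI (Phase gr Ext)
open Vale.Agent.P122.C2 (fw fn Z2)
open Vale.Agent.P122.AN (Srf hz)

/-- the parameter of a point of the plane -/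
def pp (y : Fin 2 → ℝ) : ℝ × ℝ := (y 0, y 1)

/-- the square -/
def Qs (r : ℝ) : Set (Fin 2 → ℝ) := {y | pp y ∈ FI.sq r}

/-- the sheared phase -/
noncomputable def hs (h : ℝ × ℝ → ℝ) (y : ℝ × ℝ) : ℝ := h y - (y.1 + y.2) / 2

/-- the sheared phase on the plane -/
noncomputable def hq (h : ℝ × ℝ → ℝ) (y : Fin 2 → ℝ) : ℝ := hs h (pp y)

/-- unit vectors -/
def ee (k : Fin 2) : ℝ × ℝ := if k = 0 then (1, 0) else (0, 1)

/-- the slopes -/
noncomputable def vq (h : ℝ × ℝ → ℝ) (y : Fin 2 → ℝ) : Fin 2 → ℝ := fun k => 1 / 2 - fderiv ℝ h (pp y) (ee k)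

theorem norm_ee (k : Fin 2) : ‖ee k‖ = 1 := by
  unfold ee
  fin_cases k <;> simp [Prod.norm_def]

theorem norm_pp (y : Fin 2 → ℝ) : ‖pp y‖ = ‖y‖ := by
  unfold pp
  rw [Prod.norm_def]
  apply le_antisymm
  · exact max_le (norm_le_pi_norm y 0) (norm_le_pi_norm y 1)
  · rw [pi_norm_le_iff_of_nonneg (by positivity)]
    intro i
    fin_cases i
    · exact le_max_left _ _
    · exact le_max_right _ _

theorem pp_sub (x y : Fin 2 → ℝ) : pp x - pp y = pp (x - y) := by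
  unfold pp
  simp

theorem norm_pp_sub (x y : Fin 2 → ℝ) : ‖pp x - pp y‖ = ‖x - y‖ := by rw [pp_sub, norm_pp]

theorem pp_eq (y : Fin 2 → ℝ) : pp y = y 0 • ee 0 + y 1 • ee 1 := by
  unfold pp ee
  simp

theorem clm_pp {F : Type*} [NormedAddCommGroup F] [NormedSpace ℝ F] (L : (ℝ × ℝ) →L[ℝ] F) (y : Fin 2 → ℝ) :
    L (pp y) = y 0 • L (ee 0) + y 1 • L (ee 1) := by
  rw [pp_eq, map_add, map_smul, map_smul]

theorem nsq_pp (y : Fin 2 → ℝ) : nsq (pp y) = y 0 ^ 2 + y 1 ^ 2 := rfl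

variable {h : ℝ × ℝ → ℝ} {r C : ℝ}

theorem Geo.vq_rng (hg : Geo h r C) {y : Fin 2 → ℝ} (hy : y ∈ Qs r) (k : Fin 2) : 1 / 4 ≤ vq h y k ∧ vq h y k ≤ 3 / 4 := by
  have h1 := (fderiv ℝ h (pp y)).le_opNorm (ee k)
  rw [norm_ee, mul_one, Real.norm_eq_abs] at h1
  have h2 := abs_le.1 (h1.trans (hg.bd _ hy))
  unfold vq
  constructor <;> linarith [h2.1, h2.2]

theorem col_alg {a b c C θ : ℝ} (hC : 1 ≤ C) (hq : ∀ x y : ℝ, 1 / 2 * (x ^ 2 + y ^ 2) ≤ a * x ^ 2 + 2 * b * x * y + c * y ^ 2)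
    (hac : |a| ≤ C) (hbc : |b| ≤ C) (hcc : |c| ≤ C) : ∃ ψ0 ψ1 : ℝ, (16 * C ^ 2)⁻¹ ≤ Real.cos θ * ψ0 + Real.sin θ * ψ1 ∧
    |ψ0| ≤ 8 * C ∧ |ψ1| ≤ 8 * C ∧ a * ψ0 + b * ψ1 = Real.cos θ ∧ b * ψ0 + c * ψ1 = Real.sin θ := by
  have ha2 : 1 / 2 ≤ a := by have := hq 1 0; linarith
  have hc2 : 1 / 2 ≤ c := by have := hq 0 1; linarith
  have hD1 : 1 / 4 ≤ a * c - b ^ 2 := by
    have h1 := hq b (-a)
    have h2 : 1 / 2 * a ^ 2 ≤ a * (a * c - b ^ 2) := by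
      nlinarith [sq_nonneg b]
    have h3 : 1 / 2 * a ≤ a * c - b ^ 2 := by
      have : a * (1 / 2 * a) ≤ a * (a * c - b ^ 2) := by nlinarith
      exact le_of_mul_le_mul_left this (by linarith)
    linarith
  have hD2 : a * c - b ^ 2 ≤ C ^ 2 := by
    have h1 : a * c ≤ C * C := by
      have h1 := (abs_le.1 hac).2
      have h2 := (abs_le.1 hcc).2
      exact mul_le_mul h1 h2 (by linarith) (by linarith)
    have h2 := sq_nonneg b
    nlinarith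
  generalize hD : a * c - b ^ 2 = D at *
  have hDpos : 0 < D := by linarith
  have hcs := Real.sin_sq_add_cos_sq θ
  have hcos := Real.abs_cos_le_one θ
  have hsin := Real.abs_sin_le_one θ
  generalize Real.cos θ = p at *
  generalize Real.sin θ = q at *
  have hbound : ∀ x y : ℝ, |x| ≤ C → |y| ≤ C → |(x * p + y * q) / D| ≤ 8 * C := by
    intro x y hx hy
    rw [abs_div, abs_of_pos hDpos, div_le_iff₀ hDpos]
    have h1 : |x * p + y * q| ≤ C + C := by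
      refine (abs_add_le _ _).trans ?_
      rw [abs_mul, abs_mul]
      have h1 : |x| * |p| ≤ C * 1 := mul_le_mul hx hcos (abs_nonneg _) (by linarith)
      have h2 : |y| * |q| ≤ C * 1 := mul_le_mul hy hsin (abs_nonneg _) (by linarith)
      linarith
    nlinarith
  refine ⟨(c * p + -b * q) / D, (-b * p + a * q) / D, ?_, hbound _ _ hcc (by rw [abs_neg]; exact hbc),
    hbound _ _ (by rw [abs_neg]; exact hbc) hac, ?_, ?_⟩
  · have e : p * ((c * p + -b * q) / D) + q * ((-b * p + a * q) / D) = (a * (-q) ^ 2 + 2 * b * (-q) * p + c * p ^ 2) / D := by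
      field_simp
      ring
    rw [e, le_div_iff₀ hDpos]
    have h1 := hq (-q) p
    have h2 : (16 * C ^ 2)⁻¹ * D ≤ 1 / 2 := by
      rw [inv_mul_le_iff₀ (by positivity)]
      nlinarith
    nlinarith
  · rw [mul_div_assoc', mul_div_assoc', ← add_div, div_eq_iff hDpos.ne', ← hD]
    ring
  · rw [mul_div_assoc', mul_div_assoc', ← add_div, div_eq_iff hDpos.ne', ← hD]
    ring

theorem Geo.col (hg : Geo h r C) (hC : 1 ≤ C) (θ : ℝ) {η : Fin 2 → ℝ} (hη : η ∈ Qs r) :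
    ∃ ψ : Fin 2 → ℝ, (16 * C ^ 2)⁻¹ ≤ |fw θ ψ| ∧ |ψ 0| ≤ 16 * C ^ 2 ∧ |ψ 1| ≤ 16 * C ^ 2 ∧ ∀ ξ ∈ Qs r,
    |fw θ (fun i => ξ i - η i) + ψ 0 * (vq h ξ 0 - vq h η 0) + ψ 1 * (vq h ξ 1 - vq h η 1)| ≤ 16 * C ^ 2 * ‖ξ - η‖ ^ 2 := by
  have hb' : fderiv ℝ (fderiv ℝ h) (pp η) (ee 1) (ee 0) = fderiv ℝ (fderiv ℝ h) (pp η) (ee 0) (ee 1) := hg.symm _ _ _
  have habd : ∀ k l, |fderiv ℝ (fderiv ℝ h) (pp η) (ee k) (ee l)| ≤ C := by
    intro k l
    have := (fderiv ℝ (fderiv ℝ h) (pp η)).le_opNorm₂ (ee k) (ee l)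
    rw [norm_ee, norm_ee, mul_one, mul_one, Real.norm_eq_abs] at this
    exact this.trans (hg.hbd _ hη)
  have hq : ∀ x y : ℝ, 1 / 2 * (x ^ 2 + y ^ 2) ≤ fderiv ℝ (fderiv ℝ h) (pp η) (ee 0) (ee 0) * x ^ 2 +
      2 * fderiv ℝ (fderiv ℝ h) (pp η) (ee 0) (ee 1) * x * y + fderiv ℝ (fderiv ℝ h) (pp η) (ee 1) (ee 1) * y ^ 2 := by
    intro x y
    have h1 := hg.hess _ hη (pp ![x, y])
    rw [nsq_pp] at h1
    have e : fderiv ℝ (fderiv ℝ h) (pp η) (pp ![x, y]) (pp ![x, y]) =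
        x * (x * fderiv ℝ (fderiv ℝ h) (pp η) (ee 0) (ee 0) + y * fderiv ℝ (fderiv ℝ h) (pp η) (ee 0) (ee 1)) +
        y * (x * fderiv ℝ (fderiv ℝ h) (pp η) (ee 1) (ee 0) + y * fderiv ℝ (fderiv ℝ h) (pp η) (ee 1) (ee 1)) := by
      rw [clm_pp (fderiv ℝ (fderiv ℝ h) (pp η))]
      simp only [Matrix.cons_val_zero, Matrix.cons_val_one, ContinuousLinearMap.add_apply, ContinuousLinearMap.smul_apply,
        clm_pp (fderiv ℝ (fderiv ℝ h) (pp η) (ee 0)), clm_pp (fderiv ℝ (fderiv ℝ h) (pp η) (ee 1)), smul_eq_mul]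
    rw [e, hb'] at h1
    simp only [Matrix.cons_val_zero, Matrix.cons_val_one] at h1
    linarith
  obtain ⟨ψ0, ψ1, g1, g2, g3, g4, g5⟩ := col_alg (θ := θ) hC hq (habd 0 0) (habd 0 1) (habd 1 1)
  refine ⟨![ψ0, ψ1], ?_, ?_, ?_, ?_⟩
  · exact g1.trans (le_abs_self _)
  · show |ψ0| ≤ _
    nlinarith
  · show |ψ1| ≤ _
    nlinarith
  · intro ξ hξ
    simp only [Matrix.cons_val_zero, Matrix.cons_val_one]
    have h1 := hg.tay2 _ hη _ hξ
    rw [norm_pp_sub, pp_sub] at h1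
    have hEk : ∀ k, |(fderiv ℝ h (pp ξ) - fderiv ℝ h (pp η) - fderiv ℝ (fderiv ℝ h) (pp η) (pp (ξ - η))) (ee k)| ≤
        C * ‖ξ - η‖ ^ 2 := by
      intro k
      have := (fderiv ℝ h (pp ξ) - fderiv ℝ h (pp η) - fderiv ℝ (fderiv ℝ h) (pp η) (pp (ξ - η))).le_opNorm (ee k)
      rw [norm_ee, mul_one, Real.norm_eq_abs] at this
      exact this.trans h1
    have hvk : ∀ k, vq h ξ k - vq h η k =
        -((fderiv ℝ h (pp ξ) - fderiv ℝ h (pp η) - fderiv ℝ (fderiv ℝ h) (pp η) (pp (ξ - η))) (ee k)) -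
        ((ξ 0 - η 0) * fderiv ℝ (fderiv ℝ h) (pp η) (ee 0) (ee k) + (ξ 1 - η 1) * fderiv ℝ (fderiv ℝ h) (pp η) (ee 1) (ee k)) := by
      intro k
      rw [ContinuousLinearMap.sub_apply, ContinuousLinearMap.sub_apply, clm_pp (fderiv ℝ (fderiv ℝ h) (pp η))]
      simp only [vq, ContinuousLinearMap.add_apply, ContinuousLinearMap.smul_apply, smul_eq_mul, Pi.sub_apply]
      ring
    have e0 := hEk 0
    have e1 := hEk 1
    have v0 := hvk 0
    have v1 := hvk 1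
    rw [hb'] at v0
    generalize (fderiv ℝ h (pp ξ) - fderiv ℝ h (pp η) - fderiv ℝ (fderiv ℝ h) (pp η) (pp (ξ - η))) (ee 0) = E0 at *
    generalize (fderiv ℝ h (pp ξ) - fderiv ℝ h (pp η) - fderiv ℝ (fderiv ℝ h) (pp η) (pp (ξ - η))) (ee 1) = E1 at *
    have key : fw θ (fun i => ξ i - η i) + ψ0 * (vq h ξ 0 - vq h η 0) + ψ1 * (vq h ξ 1 - vq h η 1) =
        -(ψ0 * E0) - ψ1 * E1 := by
      rw [v0, v1]
      unfold C2.fw
      linear_combination (-(ξ 0 - η 0)) * g4 - (ξ 1 - η 1) * g5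
    rw [key]
    calc |-(ψ0 * E0) - ψ1 * E1| ≤ |ψ0 * E0| + |ψ1 * E1| := by
          refine (abs_sub _ _).trans ?_
          rw [abs_neg]
      _ = |ψ0| * |E0| + |ψ1| * |E1| := by rw [abs_mul, abs_mul]
      _ ≤ 8 * C * (C * ‖ξ - η‖ ^ 2) + 8 * C * (C * ‖ξ - η‖ ^ 2) := by
          gcongr
      _ = 16 * C ^ 2 * ‖ξ - η‖ ^ 2 := by ring

theorem Geo.srf (hg : Geo h r C) (hC : 1 ≤ C) : Srf (16 * C ^ 2) (Qs r) (hq h) (vq h) := by
  have hC2 : C ≤ C ^ 2 := by nlinarith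
  refine ⟨?_, ?_, ?_, ?_⟩
  · intro ξ hξ η hη
    rw [pi_norm_le_iff_of_nonneg (by positivity)]
    intro k
    have e : (vq h ξ - vq h η) k = -((fderiv ℝ h (pp ξ) - fderiv ℝ h (pp η)) (ee k)) := by
      simp [vq]
    rw [e, norm_neg]
    refine ((fderiv ℝ h (pp ξ) - fderiv ℝ h (pp η)).le_opNorm (ee k)).trans ?_
    rw [norm_ee, mul_one]
    refine (hg.lip _ hξ _ hη).trans ?_
    rw [norm_pp_sub]
    gcongr
    linarith
  · intro ξ hξ η hη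
    have h1 := hg.ell _ hξ _ hη
    set D := fderiv ℝ h (pp ξ) - fderiv ℝ h (pp η) with hD
    set w := ξ - η with hw
    rw [pp_sub] at h1
    have h2 := norm_sq_le_nsq (pp w)
    rw [norm_pp] at h2
    have h3 : D (pp w) ≤ 2 * (‖vq h ξ - vq h η‖ * ‖w‖) := by
      rw [clm_pp]
      have e : ∀ k, D (ee k) = -((vq h ξ - vq h η) k) := by
        intro k
        simp [vq, hD]
      have h4 : ∀ k : Fin 2, w k * D (ee k) ≤ ‖vq h ξ - vq h η‖ * ‖w‖ := by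
        intro k
        have h5 := norm_le_pi_norm (vq h ξ - vq h η) k
        have h6 := norm_le_pi_norm w k
        rw [e]
        calc w k * -((vq h ξ - vq h η) k) ≤ |w k * -((vq h ξ - vq h η) k)| := le_abs_self _
          _ = ‖w k‖ * ‖(vq h ξ - vq h η) k‖ := by rw [abs_mul, abs_neg]; rfl
          _ ≤ ‖w‖ * ‖vq h ξ - vq h η‖ := by gcongr
          _ = _ := mul_comm _ _
      have h7 := h4 0
      have h8 := h4 1
      simp only [smul_eq_mul]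
      linarith
    have h4 : ‖w‖ ^ 2 ≤ 4 * ‖vq h ξ - vq h η‖ * ‖w‖ := by nlinarith
    have h5 : ‖w‖ ≤ 4 * ‖vq h ξ - vq h η‖ := by
      rcases eq_or_lt_of_le (norm_nonneg w) with h0 | h0
      · rw [← h0]; positivity
      · have : ‖w‖ * ‖w‖ ≤ 4 * ‖vq h ξ - vq h η‖ * ‖w‖ := by rw [← sq]; exact h4
        exact le_of_mul_le_mul_right this h0
    refine h5.trans ?_
    gcongr
    nlinarith
  · intro ξ hξ η hη
    have h1 := hg.tay _ hη _ hξ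
    rw [norm_pp_sub] at h1
    have e : hq h ξ - hq h η + vq h η 0 * (ξ 0 - η 0) + vq h η 1 * (ξ 1 - η 1) =
        h (pp ξ) - h (pp η) - fderiv ℝ h (pp η) (pp ξ - pp η) := by
      rw [pp_sub, clm_pp]
      simp only [hq, hs, vq, pp, Pi.sub_apply, smul_eq_mul]
      ring
    rw [e]
    refine h1.trans ?_
    gcongr
    linarith
  · intro θ η hη
    exact hg.col hC θ hη

/-- the surface of a phase -/
theorem srf_phase (hh : Phase h) : ∃ r : ℝ, 0 < r ∧ r ≤ 1 ∧ ∃ C : ℝ, 1 ≤ C ∧ Geo h r C ∧ Srf C (Qs r) (hq h) (vq h) ∧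
    ∀ y ∈ Qs r, ∀ k, 1 / 4 ≤ vq h y k ∧ vq h y k ≤ 3 / 4 := by
  obtain ⟨r, hr, hr1, C, hC, hg⟩ := exists_geo hh
  refine ⟨r, hr, hr1, 16 * C ^ 2, by nlinarith, hg.mono le_rfl (by nlinarith), hg.srf hC, fun y hy k => hg.vq_rng hy k⟩

end Vale.Agent.P122.AN193
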