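import Vale.Agent.P122.AN193.Cut
import Vale.Agent.P122.AN193.Srf
import Vale.Agent.P122.J342.Kt

/-! # P122 / AN193 : the pieces of a bounded function supported near a surface (helper193) -/

open MeasureTheory Complex Set
open scoped ENNReal NNReal ContDiff FourierTransform

set_option linter.all false

namespace Vale.Agent.P122.AN193

open Vale.Agent.P122.C2 (fw fn Z2)
open Vale.Agent.P122.AN (Srf Dat hz desc pie KTw enw E3)

theorem stKtw : StKtw := by
  intro C0 hC0
  obtain ⟨C, hC, hk⟩ := J342.ktw_of C0 hC0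
  exact ⟨C, hC, fun Q h v K n g B _ hS hd _ hB M => hk Q h v K n g B hS hd hB M⟩

theorem stKt : StKt := stKt_of stKtw

theorem srf_mono {C C' : ℝ} {Q : Set (Fin 2 → ℝ)} {h : (Fin 2 → ℝ) → ℝ} {v : (Fin 2 → ℝ) → Fin 2 → ℝ} (hC : 0 < C)
    (hCC : C ≤ C') (hS : Srf C Q h v) : Srf C' Q h v := by
  refine ⟨fun ξ hξ η hη => (hS.up ξ hξ η hη).trans (by gcongr), fun ξ hξ η hη => (hS.lo ξ hξ η hη).trans (by gcongr),
    fun ξ hξ η hη => (hS.tay ξ hξ η hη).trans (by gcongr), fun θ η hη => ?_⟩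
  obtain ⟨ψ, h1, h2, h3, h4⟩ := hS.col θ η hη
  exact ⟨ψ, (inv_anti₀ hC hCC).trans h1, h2.trans hCC, h3.trans hCC, fun ξ hξ => (h4 ξ hξ).trans (by gcongr)⟩

theorem measurable_vq {h : ℝ × ℝ → ℝ} (hh : FI.Phase h) (k : Fin 2) : Measurable fun ξ : E3 => vq h (hz ξ) k := by
  have h1 : Continuous (fderiv ℝ h) := (contDiff_fderiv hh.smooth).continuous
  have h2 : Continuous fun ξ : E3 => pp (hz ξ) := by
    have e : (fun ξ : E3 => pp (hz ξ)) = fun ξ : E3 => (ξ 0, ξ 1) := by
      ext ξ <;> simp [pp, AN.hz]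
    rw [e]
    fun_prop
  have h3 : Continuous fun ξ : E3 => vq h (hz ξ) k := by
    unfold vq
    exact continuous_const.sub ((h1.comp h2).clm_apply continuous_const)
  exact h3.measurable

end Vale.Agent.P122.AN193
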